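/-
S0076: the spread lemma (Rao-style one-step encoding), in sub-probability form.

Weights `m i ≥ 0` on sets `S i ⊆ X` with the absolute spread condition
`∑_{i : T ⊆ S i} m i ≤ q ^ |T|`.  One round: `W` is `δ`-biased, `δ ≥ 2048 q`.  The remainder of
`i` is the least `S j \ W` over the `j` with `S j ⊆ S i ∪ W`; it is contained in `S i`, so the spread
condition is inherited by the (alive) remainders, with the same `q`; only the mass decreases.
-/
import Mathlib
import Crest.Prelude.Def_FinProb

set_option autoImplicit false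
set_option linter.unusedSectionVars false
set_option linter.unusedSimpArgs false
set_option linter.unusedVariables false

namespace Crest.Agent.KK

open Finset
open scoped Classical

variable {X : Type*} [Fintype X] [DecidableEq X] {ι : Type*} [Fintype ι]

/-- Weight of `W` on the coordinates of `s`. -/
noncomputable def wtOn (s : Finset X) (a : ℝ) (W : Finset X) : ℝ :=
  ∏ x ∈ s, if x ∈ W then a else 1 - a

/-- The weight of `W` under `a`-biased coins. -/
noncomputable def wt (a : ℝ) (W : Finset X) : ℝ := wtOn univ a W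

theorem wt_nonneg {a : ℝ} (h0 : 0 ≤ a) (h1 : a ≤ 1) (W : Finset X) : 0 ≤ wt a W :=
  prod_nonneg fun x _ => by split_ifs <;> linarith

theorem wtOn_insert_of_subset {s W : Finset X} {y : X} (a : ℝ) (hy : y ∉ s) (hW : W ⊆ s) :
    wtOn (insert y s) a W = (1 - a) * wtOn s a W := by
  unfold wtOn
  rw [prod_insert hy, if_neg (fun h => hy (hW h))]

theorem wtOn_insert_insert {s W : Finset X} {y : X} (a : ℝ) (hy : y ∉ s) :
    wtOn (insert y s) a (insert y W) = a * wtOn s a W := by
  unfold wtOn
  rw [prod_insert hy, if_pos (mem_insert_self _ _)]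
  congr 1
  refine prod_congr rfl fun x hx => ?_
  have : x ≠ y := fun h => hy (h ▸ hx)
  simp [this]

theorem sum_wtOn (a : ℝ) (s : Finset X) : ∑ W ∈ s.powerset, wtOn s a W = 1 := by
  induction s using Finset.induction_on with
  | empty => simp [wtOn]
  | insert y s hy ih =>
    rw [sum_powerset_insert hy]
    rw [sum_congr rfl (fun W hW => wtOn_insert_of_subset a hy (mem_powerset.1 hW)),
      sum_congr rfl (fun W hW => wtOn_insert_insert (W := W) a hy), ← mul_sum, ← mul_sum, ih]
    ring

theorem sum_wt (a : ℝ) : ∑ W : Finset X, wt a W = 1 := by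
  have := sum_wtOn a (univ : Finset X)
  rwa [powerset_univ] at this

/-- Union of two independent biased sets. -/
theorem couple_on (a b : ℝ) (s : Finset X) : ∀ u : Finset X → ℝ,
    ∑ W ∈ s.powerset, ∑ W' ∈ s.powerset, wtOn s a W * wtOn s b W' * u (W ∪ W')
      = ∑ U ∈ s.powerset, wtOn s (a + b - a * b) U * u U := by
  induction s using Finset.induction_on with
  | empty => intro u; simp [wtOn]
  | insert y s hy ih =>
    intro u
    have hR : ∑ U ∈ (insert y s).powerset, wtOn (insert y s) (a + b - a * b) U * u U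
        = (1 - (a + b - a * b)) * ∑ U ∈ s.powerset, wtOn s (a + b - a * b) U * u U
          + (a + b - a * b) * ∑ U ∈ s.powerset, wtOn s (a + b - a * b) U * u (insert y U) := by
      rw [sum_powerset_insert hy, mul_sum, mul_sum]
      congr 1
      · refine sum_congr rfl fun U hU => ?_
        rw [wtOn_insert_of_subset _ hy (mem_powerset.1 hU)]
        ring
      · refine sum_congr rfl fun U hU => ?_
        rw [wtOn_insert_insert _ hy]
        ring
    rw [hR, sum_powerset_insert hy]
    have e1 : ∀ W ∈ s.powerset, ∑ W' ∈ (insert y s).powerset,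
          wtOn (insert y s) a W * wtOn (insert y s) b W' * u (W ∪ W')
        = ∑ W' ∈ s.powerset, ((1 - a) * (1 - b)) * (wtOn s a W * wtOn s b W' * u (W ∪ W'))
          + ∑ W' ∈ s.powerset, ((1 - a) * b) * (wtOn s a W * wtOn s b W' * u (insert y (W ∪ W'))) := by
      intro W hW
      rw [sum_powerset_insert hy]
      congr 1
      · refine sum_congr rfl fun W' hW' => ?_
        rw [wtOn_insert_of_subset a hy (mem_powerset.1 hW),
          wtOn_insert_of_subset b hy (mem_powerset.1 hW')]
        ring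
      · refine sum_congr rfl fun W' hW' => ?_
        rw [wtOn_insert_of_subset a hy (mem_powerset.1 hW), wtOn_insert_insert b hy,
          union_insert]
        ring
    have e2 : ∀ W ∈ s.powerset, ∑ W' ∈ (insert y s).powerset,
          wtOn (insert y s) a (insert y W) * wtOn (insert y s) b W' * u (insert y W ∪ W')
        = ∑ W' ∈ s.powerset, (a * (1 - b)) * (wtOn s a W * wtOn s b W' * u (insert y (W ∪ W')))
          + ∑ W' ∈ s.powerset, (a * b) * (wtOn s a W * wtOn s b W' * u (insert y (W ∪ W'))) := by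
      intro W hW
      rw [sum_powerset_insert hy]
      congr 1
      · refine sum_congr rfl fun W' hW' => ?_
        rw [wtOn_insert_insert a hy, wtOn_insert_of_subset b hy (mem_powerset.1 hW'),
          insert_union]
        ring
      · refine sum_congr rfl fun W' hW' => ?_
        rw [wtOn_insert_insert a hy, wtOn_insert_insert b hy, insert_union, union_insert,
          insert_idem]
        ring
    rw [sum_congr rfl e1, sum_congr rfl e2]
    simp only [sum_add_distrib, ← mul_sum]
    rw [ih u, ih (fun V => u (insert y V))]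
    ring

theorem couple (a b : ℝ) (u : Finset X → ℝ) :
    ∑ W : Finset X, ∑ W' : Finset X, wt a W * wt b W' * u (W ∪ W')
      = ∑ U : Finset X, wt (a + b - a * b) U * u U := by
  have := couple_on a b (univ : Finset X) u
  rwa [powerset_univ] at this

theorem wt_sdiff (δ : ℝ) {T Z : Finset X} (h : T ⊆ Z) :
    wt δ (Z \ T) * δ ^ T.card = wt δ Z * (1 - δ) ^ T.card := by
  have h1 : ∀ c : ℝ, c ^ T.card = ∏ x, if x ∈ T then c else 1 := by
    intro c
    rw [prod_ite_mem, univ_inter, prod_const]
  rw [h1 δ, h1 (1 - δ)]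
  unfold wt wtOn
  rw [← prod_mul_distrib, ← prod_mul_distrib]
  refine prod_congr rfl fun x _ => ?_
  by_cases hx : x ∈ T
  · have hZ := h hx
    simp [hx, hZ]
    ring
  · by_cases hZ : x ∈ Z <;> simp [hx, hZ]

/-- A member of the family inside `U`. -/
def Ev (m : ι → ℝ) (S : ι → Finset X) (U : Finset X) : Prop := ∃ i, 0 < m i ∧ S i ⊆ U

theorem exists_pick (m : ι → ℝ) (S : ι → Finset X) (W : Finset X) (i : ι) :
    ∃ j, 0 < m i → (0 < m j ∧ S j ⊆ S i ∪ W ∧
      ∀ j', 0 < m j' → S j' ⊆ S i ∪ W → (S j \ W).card ≤ (S j' \ W).card) := by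
  by_cases hi : 0 < m i
  · obtain ⟨j, hj, hmin⟩ := exists_min_image (univ.filter fun j => 0 < m j ∧ S j ⊆ S i ∪ W)
      (fun j => (S j \ W).card) ⟨i, by simp [hi, subset_union_left]⟩
    obtain ⟨h1, h2⟩ := (mem_filter.1 hj).2
    exact ⟨j, fun _ => ⟨h1, h2, fun j' h3 h4 => hmin j' (by simp [h3, h4])⟩⟩
  · exact ⟨i, fun h => absurd h hi⟩

/-- The failure estimate of one round. -/
theorem failure {δ q : ℝ} (hδ0 : 0 < δ) (hδ1 : δ ≤ 1) (hq0 : 0 ≤ q) (hq : 2048 * q ≤ δ)
    {m : ι → ℝ} {S : ι → Finset X} (hm : ∀ i, 0 ≤ m i) (L K : ℕ) (hS : ∀ i, (S i).card ≤ L)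
    (hspread : ∀ T : Finset X, ∑ i, (if T ⊆ S i then m i else 0) ≤ q ^ T.card)
    (pick : Finset X → ι → ι)
    (hpick : ∀ W i, 0 < m i → (0 < m (pick W i) ∧ S (pick W i) ⊆ S i ∪ W ∧
      ∀ j', 0 < m j' → S j' ⊆ S i ∪ W → (S (pick W i) \ W).card ≤ (S j' \ W).card)) :
    ∑ W : Finset X, wt δ W * ∑ i, (if K ≤ (S (pick W i) \ W).card then m i else 0)
      ≤ 2 ^ L * (1 / 2048) ^ K := by
  -- the selector
  have hF : ∀ Z : Finset X, ∃ T0 : Finset X, T0 ⊆ Z ∧ T0.card ≤ L ∧
      ((∃ j, 0 < m j ∧ S j ⊆ Z) → ∃ j0, 0 < m j0 ∧ S j0 = T0) := by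
    intro Z
    by_cases h : ∃ j, 0 < m j ∧ S j ⊆ Z
    · obtain ⟨j, h1, h2⟩ := h
      exact ⟨S j, h2, hS j, fun _ => ⟨j, h1, rfl⟩⟩
    · exact ⟨∅, empty_subset _, by simp, fun h' => absurd h' h⟩
  choose F hF1 hF2 hF3 using hF
  set chi : Finset X → ι → Finset X := fun W i => S (pick W i) \ W with hchi
  -- the encoding
  have henc : ∀ W i, 0 < m i → chi W i ⊆ F (W ∪ chi W i) ∧ chi W i ⊆ S i := by
    intro W i hi
    obtain ⟨h1, h2, h3⟩ := hpick W i hi
    have hsub : chi W i ⊆ S i := by
      intro x hx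
      obtain ⟨hx1, hx2⟩ := mem_sdiff.1 hx
      rcases mem_union.1 (h2 hx1) with h | h
      · exact h
      · exact absurd h hx2
    refine ⟨?_, hsub⟩
    have hmem : ∃ j, 0 < m j ∧ S j ⊆ W ∪ chi W i := by
      refine ⟨pick W i, h1, ?_⟩
      intro x hx
      by_cases hxW : x ∈ W
      · exact mem_union_left _ hxW
      · exact mem_union_right _ (mem_sdiff.2 ⟨hx, hxW⟩)
    obtain ⟨j0, hj0, hj1⟩ := hF3 _ hmem
    have hsub2 : S j0 ⊆ S i ∪ W := by
      rw [hj1]
      refine (hF1 _).trans ?_
      intro x hx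
      rcases mem_union.1 hx with h | h
      · exact mem_union_right _ h
      · exact mem_union_left _ (hsub h)
    have hcard := h3 j0 hj0 hsub2
    have hsub3 : S j0 \ W ⊆ chi W i := by
      intro x hx
      obtain ⟨hx1, hx2⟩ := mem_sdiff.1 hx
      rw [hj1] at hx1
      rcases mem_union.1 (hF1 _ hx1) with h | h
      · exact absurd h hx2
      · exact h
    have heq : S j0 \ W = chi W i := eq_of_subset_of_card_le hsub3 hcard
    rw [← hj1, ← heq]
    exact sdiff_subset
  -- reorganise the left side as a sum over pairs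
  set P : Finset (Finset X × ι) := univ.filter fun t => 0 < m t.2 ∧ K ≤ (chi t.1 t.2).card with hP
  have hL : ∑ W : Finset X, wt δ W * ∑ i, (if K ≤ (S (pick W i) \ W).card then m i else 0)
      = ∑ t ∈ P, wt δ t.1 * m t.2 := by
    rw [hP, sum_filter, Fintype.sum_prod_type]
    refine sum_congr rfl fun W _ => ?_
    rw [mul_sum]
    refine sum_congr rfl fun i _ => ?_
    by_cases h1 : 0 < m i
    · by_cases h2 : K ≤ (S (pick W i) \ W).card
      · simp [h1, h2, hchi]
      · simp [h1, h2, hchi]
    · have h3 : m i = 0 := le_antisymm (not_lt.1 h1) (hm i)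
      simp [h3]
  rw [hL]
  set R : Finset (Finset X × Finset X × ι) :=
    univ.filter fun t => t.2.1 ⊆ F t.1 ∧ K ≤ t.2.1.card ∧ t.2.1 ⊆ S t.2.2 with hR
  set g : Finset X × ι → Finset X × Finset X × ι := fun t => (t.1 ∪ chi t.1 t.2, chi t.1 t.2, t.2)
    with hg
  have hWeq : ∀ W i, (W ∪ chi W i) \ chi W i = W := by
    intro W i
    apply union_sdiff_cancel_right
    exact disjoint_sdiff
  have hinj : Set.InjOn g (P : Set (Finset X × ι)) := by
    rintro ⟨W, i⟩ - ⟨W', i'⟩ - h
    simp only [hg, Prod.mk.injEq] at h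
    obtain ⟨h1, h2, h3⟩ := h
    subst h3
    have : W = W' := by
      rw [← hWeq W i, ← hWeq W' i, h1, h2]
    rw [this]
  have hstep1 : ∑ t ∈ P, wt δ t.1 * m t.2 ≤ ∑ t ∈ R, wt δ (t.1 \ t.2.1) * m t.2.2 := by
    have himg : ∑ t ∈ P, wt δ t.1 * m t.2 = ∑ t ∈ P.image g, wt δ (t.1 \ t.2.1) * m t.2.2 := by
      rw [sum_image (fun x hx y hy h => hinj hx hy h)]
      refine sum_congr rfl fun t _ => ?_
      simp only [hg]
      rw [hWeq]
    rw [himg]
    refine sum_le_sum_of_subset_of_nonneg ?_ ?_
    · intro t ht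
      obtain ⟨t0, ht0, rfl⟩ := mem_image.1 ht
      obtain ⟨h1, h2⟩ := (mem_filter.1 ht0).2
      obtain ⟨h3, h4⟩ := henc t0.1 t0.2 h1
      simp only [hR, mem_filter, mem_univ, true_and, hg]
      exact ⟨h3, h2, h4⟩
    · intro t _ _
      exact mul_nonneg (wt_nonneg hδ0.le hδ1 _) (hm _)
  refine hstep1.trans ?_
  rw [hR, sum_filter, Fintype.sum_prod_type]
  simp only [Fintype.sum_prod_type]
  set ε : ℝ := (1 / 2048) ^ K with hε
  have hε0 : 0 ≤ ε := by positivity
  have hZ : ∀ Z : Finset X, ∑ T : Finset X, ∑ i : ι,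
      (if T ⊆ F Z ∧ K ≤ T.card ∧ T ⊆ S i then wt δ (Z \ T) * m i else 0) ≤ wt δ Z * (2 ^ L * ε) := by
    intro Z
    have hZ0 := wt_nonneg hδ0.le hδ1 Z
    have hT : ∀ T : Finset X, ∑ i : ι,
        (if T ⊆ F Z ∧ K ≤ T.card ∧ T ⊆ S i then wt δ (Z \ T) * m i else 0)
          ≤ if T ⊆ F Z then wt δ Z * ε else 0 := by
      intro T
      by_cases h1 : T ⊆ F Z ∧ K ≤ T.card
      · obtain ⟨h1a, h1b⟩ := h1
        have hTZ : T ⊆ Z := h1a.trans (hF1 Z)
        have e1 : ∀ i, (if T ⊆ F Z ∧ K ≤ T.card ∧ T ⊆ S i then wt δ (Z \ T) * m i else 0)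
            = wt δ (Z \ T) * (if T ⊆ S i then m i else 0) := by
          intro i
          by_cases h2 : T ⊆ S i <;> simp [h1a, h1b, h2]
        rw [sum_congr rfl (fun i _ => e1 i), ← mul_sum, if_pos h1a]
        have h5 := hspread T
        have hw0 : 0 ≤ wt δ (Z \ T) := wt_nonneg hδ0.le hδ1 _
        calc wt δ (Z \ T) * ∑ i, (if T ⊆ S i then m i else 0)
            ≤ wt δ (Z \ T) * q ^ T.card := mul_le_mul_of_nonneg_left h5 hw0
          _ ≤ wt δ (Z \ T) * (δ ^ T.card * (1 / 2048) ^ T.card) := by
              apply mul_le_mul_of_nonneg_left _ hw0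
              rw [← mul_pow]
              exact pow_le_pow_left₀ hq0 (by linarith) _
          _ = (wt δ (Z \ T) * δ ^ T.card) * (1 / 2048) ^ T.card := by ring
          _ = wt δ Z * (1 - δ) ^ T.card * (1 / 2048) ^ T.card := by rw [wt_sdiff δ hTZ]
          _ ≤ wt δ Z * 1 * ε := by
              apply mul_le_mul _ _ (by positivity) (by positivity)
              · apply mul_le_mul_of_nonneg_left _ hZ0
                exact pow_le_one₀ (by linarith) (by linarith)
              · exact pow_le_pow_of_le_one (by norm_num) (by norm_num) h1b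
          _ = wt δ Z * ε := by ring
      · have e1 : ∀ i, (if T ⊆ F Z ∧ K ≤ T.card ∧ T ⊆ S i then wt δ (Z \ T) * m i else 0) = 0 := by
          intro i
          rw [if_neg]
          rintro ⟨h2, h3, -⟩
          exact h1 ⟨h2, h3⟩
        rw [sum_congr rfl (fun i _ => e1 i), sum_const_zero]
        split_ifs
        · exact mul_nonneg hZ0 hε0
        · exact le_rfl
    refine (sum_le_sum fun T _ => hT T).trans ?_
    rw [← sum_filter, sum_const, nsmul_eq_mul]
    have hcard : ((univ.filter fun T : Finset X => T ⊆ F Z).card : ℝ) ≤ 2 ^ L := by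
      have : (univ.filter fun T : Finset X => T ⊆ F Z) = (F Z).powerset := by
        ext T; simp
      rw [this, card_powerset]
      push_cast
      exact pow_le_pow_right₀ (by norm_num) (hF2 Z)
    calc ((univ.filter fun T : Finset X => T ⊆ F Z).card : ℝ) * (wt δ Z * ε)
        ≤ 2 ^ L * (wt δ Z * ε) := mul_le_mul_of_nonneg_right hcard (mul_nonneg hZ0 hε0)
      _ = wt δ Z * (2 ^ L * ε) := by ring
  refine (sum_le_sum fun Z _ => hZ Z).trans ?_
  rw [← sum_mul, sum_wt, one_mul]

/-- The spread lemma: `r` rounds. -/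
theorem spread_core {δ q : ℝ} (hδ0 : 0 < δ) (hδ1 : δ ≤ 1) (hq0 : 0 ≤ q) (hq : 2048 * q ≤ δ) (r : ℕ) :
    ∀ (m : ι → ℝ) (S : ι → Finset X), (∀ i, 0 ≤ m i) → (∀ i, (S i).card < 2 ^ r) →
      (∀ T : Finset X, ∑ i, (if T ⊆ S i then m i else 0) ≤ q ^ T.card) →
      ∑ i, m i - (1 / 2) * (1 - (1 / 2) ^ r)
        ≤ ∑ U : Finset X, wt (1 - (1 - δ) ^ r) U * (if Ev m S U then 1 else 0) := by
  induction r with
  | zero =>
    intro m S hm hS hspread
    have h1 : ∑ i, m i ≤ 1 := by
      have := hspread ∅
      simpa using this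
    by_cases h : ∃ i, 0 < m i
    · obtain ⟨i, hi⟩ := h
      have hev : ∀ U : Finset X, Ev m S U := by
        intro U
        refine ⟨i, hi, ?_⟩
        have : (S i).card = 0 := by simpa using hS i
        rw [card_eq_zero.1 this]
        exact empty_subset _
      simp only [hev, if_true, mul_one, sum_wt]
      simpa using h1
    · have h0 : ∀ i, m i = 0 := fun i => le_antisymm (not_lt.1 fun h' => h ⟨i, h'⟩) (hm i)
      simp only [h0, sum_const_zero]
      norm_num
      refine sum_nonneg fun U _ => ?_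
      split_ifs
      · exact wt_nonneg (by norm_num) (by norm_num) U
      · exact le_rfl
  | succ r ih =>
    intro m S hm hS hspread
    choose pick hpick using exists_pick m S
    set K : ℕ := 2 ^ r with hK
    set L : ℕ := 2 ^ (r + 1) with hL
    have hfail := failure hδ0 hδ1 hq0 hq hm L K (fun i => (hS i).le) hspread pick hpick
    set chi : Finset X → ι → Finset X := fun W i => S (pick W i) \ W with hchi
    set ρ : ℝ := 1 - (1 - δ) ^ r with hρ
    have hρ0 : 0 ≤ ρ := by
      have : (1 - δ) ^ r ≤ 1 := pow_le_one₀ (by linarith) (by linarith)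
      linarith
    have hρ1 : ρ ≤ 1 := by
      have : 0 ≤ (1 - δ) ^ r := pow_nonneg (by linarith) _
      linarith
    -- one round
    have hW : ∀ W : Finset X,
        ∑ i, m i - ∑ i, (if K ≤ (S (pick W i) \ W).card then m i else 0)
            - (1 / 2) * (1 - (1 / 2) ^ r)
          ≤ ∑ U : Finset X, wt ρ U * (if Ev m S (W ∪ U) then 1 else 0) := by
      intro W
      set m' : ι → ℝ := fun i => if (chi W i).card < K then m i else 0 with hm'
      set S' : ι → Finset X := fun i => if (chi W i).card < K then chi W i else ∅ with hS'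
      have h1 : ∀ i, 0 ≤ m' i := by
        intro i
        simp only [hm']
        split_ifs
        · exact hm i
        · exact le_rfl
      have h2 : ∀ i, (S' i).card < 2 ^ r := by
        intro i
        simp only [hS']
        split_ifs with h
        · exact h
        · simp
      have h3 : ∀ T : Finset X, ∑ i, (if T ⊆ S' i then m' i else 0) ≤ q ^ T.card := by
        intro T
        refine le_trans (sum_le_sum fun i _ => ?_) (hspread T)
        by_cases hi : 0 < m i
        · by_cases hc : (chi W i).card < K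
          · simp only [hS', hm', hc, if_true]
            by_cases hT : T ⊆ chi W i
            · have : T ⊆ S i := by
                refine hT.trans ?_
                intro x hx
                obtain ⟨hx1, hx2⟩ := mem_sdiff.1 hx
                rcases mem_union.1 ((hpick W i hi).2.1 hx1) with h | h
                · exact h
                · exact absurd h hx2
              simp [hT, this]
            · rw [if_neg hT]
              split_ifs
              · exact hm i
              · exact le_rfl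
          · simp only [hS', hm', hc, if_false]
            split_ifs
            · exact hm i
            · exact le_rfl
            · exact hm i
            · exact le_rfl
        · have h0 : m i = 0 := le_antisymm (not_lt.1 hi) (hm i)
          simp only [hm', h0]
          simp
      have h4 := ih m' S' h1 h2 h3
      have h5 : ∑ i, m' i = ∑ i, m i - ∑ i, (if K ≤ (S (pick W i) \ W).card then m i else 0) := by
        rw [← sum_sub_distrib]
        refine sum_congr rfl fun i _ => ?_
        simp only [hm', hchi]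
        by_cases hc : (S (pick W i) \ W).card < K
        · simp [hc, not_le.2 hc]
        · simp [hc, not_lt.1 hc]
      rw [h5] at h4
      refine h4.trans (sum_le_sum fun U _ => ?_)
      apply mul_le_mul_of_nonneg_left _ (wt_nonneg hρ0 hρ1 U)
      by_cases hev : Ev m' S' U
      · have hev2 : Ev m S (W ∪ U) := by
          obtain ⟨i, hi1, hi2⟩ := hev
          by_cases hc : (chi W i).card < K
          · have hi3 : 0 < m i := by simpa [hm', hc] using hi1
            have hi4 : chi W i ⊆ U := by simpa [hS', hc] using hi2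
            refine ⟨pick W i, (hpick W i hi3).1, ?_⟩
            intro x hx
            by_cases hxW : x ∈ W
            · exact mem_union_left _ hxW
            · exact mem_union_right _ (hi4 (mem_sdiff.2 ⟨hx, hxW⟩))
          · simp [hm', hc] at hi1
        simp [hev, hev2]
      · rw [if_neg hev]
        split_ifs <;> norm_num
    -- sum over `W`
    have hcouple := couple δ ρ (fun U => if Ev m S U then (1 : ℝ) else 0)
    have hbias : δ + ρ - δ * ρ = 1 - (1 - δ) ^ (r + 1) := by
      rw [hρ, pow_succ]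
      ring
    rw [hbias] at hcouple
    rw [← hcouple]
    have hsum : ∑ W : Finset X, wt δ W * (∑ i, m i - ∑ i, (if K ≤ (S (pick W i) \ W).card then m i else 0)
            - (1 / 2) * (1 - (1 / 2) ^ r))
        ≤ ∑ W : Finset X, ∑ W' : Finset X, wt δ W * wt ρ W' * (if Ev m S (W ∪ W') then 1 else 0) := by
      refine sum_le_sum fun W _ => ?_
      have := mul_le_mul_of_nonneg_left (hW W) (wt_nonneg hδ0.le hδ1 W)
      rw [mul_sum] at this
      refine this.trans (le_of_eq (sum_congr rfl fun W' _ => ?_))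
      ring
    have hexp : ∑ W : Finset X, wt δ W * (∑ i, m i - ∑ i, (if K ≤ (S (pick W i) \ W).card then m i else 0)
            - (1 / 2) * (1 - (1 / 2) ^ r))
        = ∑ i, m i - (1 / 2) * (1 - (1 / 2) ^ r)
          - ∑ W : Finset X, wt δ W * ∑ i, (if K ≤ (S (pick W i) \ W).card then m i else 0) := by
      have : ∀ W : Finset X, wt δ W * (∑ i, m i - ∑ i, (if K ≤ (S (pick W i) \ W).card then m i else 0)
            - (1 / 2) * (1 - (1 / 2) ^ r))
          = wt δ W * (∑ i, m i - (1 / 2) * (1 - (1 / 2) ^ r))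
            - wt δ W * ∑ i, (if K ≤ (S (pick W i) \ W).card then m i else 0) := fun W => by ring
      rw [sum_congr rfl (fun W _ => this W), sum_sub_distrib, ← sum_mul, sum_wt, one_mul]
    rw [hexp] at hsum
    have hbound : (2 : ℝ) ^ L * (1 / 2048) ^ K ≤ (1 / 2) ^ (r + 2) := by
      have e1 : (2 : ℝ) ^ L * (1 / 2048) ^ K = (1 / 512) ^ K := by
        rw [hL, hK, pow_succ, mul_comm (2 ^ r) 2, pow_mul, ← mul_pow]
        norm_num
      rw [e1]
      have h6 : r + 1 ≤ K := by
        rw [hK]
        exact Nat.lt_two_pow_self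
      calc (1 / 512 : ℝ) ^ K ≤ (1 / 512) ^ (r + 1) :=
            pow_le_pow_of_le_one (by norm_num) (by norm_num) h6
        _ ≤ (1 / 2) ^ (r + 2) := by
            have e2 : (1 / 2 : ℝ) ^ (r + 2) = (1 / 2) * (1 / 2) ^ (r + 1) := by ring
            rw [e2]
            have e3 : (1 / 512 : ℝ) ^ (r + 1) = (1 / 256) ^ (r + 1) * (1 / 2) ^ (r + 1) := by
              rw [← mul_pow]; norm_num
            rw [e3]
            apply mul_le_mul_of_nonneg_right _ (by positivity)
            calc (1 / 256 : ℝ) ^ (r + 1) ≤ (1 / 256) ^ 1 :=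
                  pow_le_pow_of_le_one (by norm_num) (by norm_num) (by omega)
              _ ≤ 1 / 2 := by norm_num
    have e4 : (1 / 2 : ℝ) ^ (r + 2) = (1 / 2) ^ r * (1 / 4) := by
      rw [pow_add]; norm_num
    have e5 : (1 / 2 : ℝ) ^ (r + 1) = (1 / 2) ^ r * (1 / 2) := by
      rw [pow_succ]
    rw [e4] at hbound
    rw [e5]
    linarith

/-- Monotonicity in the bias. -/
theorem mono_bias {a b : ℝ} (ha0 : 0 ≤ a) (hab : a ≤ b) (hb1 : b ≤ 1) (E : Finset X → Prop)
    (hE : ∀ U V, U ⊆ V → E U → E V) :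
    ∑ U : Finset X, wt a U * (if E U then 1 else 0) ≤ ∑ U : Finset X, wt b U * (if E U then 1 else 0) := by
  by_cases ha1 : a = 1
  · have : b = 1 := le_antisymm hb1 (ha1 ▸ hab)
    rw [ha1, this]
  have ha1' : a < 1 := lt_of_le_of_ne (hab.trans hb1) ha1
  set c : ℝ := (b - a) / (1 - a) with hc
  have hc0 : 0 ≤ c := div_nonneg (by linarith) (by linarith)
  have hc1 : c ≤ 1 := by
    rw [hc, div_le_one (by linarith)]
    linarith
  have hbias : a + c - a * c = b := by
    rw [hc]
    field_simp [show (1 - a) ≠ 0 by linarith]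
    ring
  have h := couple a c (fun U => if E U then (1 : ℝ) else 0)
  rw [hbias] at h
  rw [← h]
  refine sum_le_sum fun W _ => ?_
  have e1 : wt a W * (if E W then (1 : ℝ) else 0) = ∑ W' : Finset X, wt a W * wt c W' * (if E W then 1 else 0) := by
    rw [← sum_mul, ← mul_sum, sum_wt, mul_one]
  rw [e1]
  refine sum_le_sum fun W' _ => ?_
  apply mul_le_mul_of_nonneg_left _ (mul_nonneg (wt_nonneg ha0 (hab.trans hb1) W) (wt_nonneg hc0 hc1 W'))
  by_cases h1 : E W
  · have h2 : E (W ∪ W') := hE _ _ subset_union_left h1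
    simp [h1, h2]
  · rw [if_neg h1]
    split_ifs <;> norm_num

/-- The support of an outcome. -/
def supp (ω : X → Bool) : Finset X := univ.filter fun x => ω x = true

/-- Outcomes are finsets. -/
def omegaEquiv : (X → Bool) ≃ Finset X where
  toFun := supp
  invFun W := fun x => decide (x ∈ W)
  left_inv ω := by
    funext x
    simp [supp]
  right_inv W := by
    ext x
    simp [supp]

theorem weight_eq (p : ℝ) (ω : X → Bool) : Crest.FinProb.bernoulliWeight p ω = wt p (supp ω) := by
  unfold Crest.FinProb.bernoulliWeight wt wtOn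
  refine prod_congr rfl fun x _ => ?_
  by_cases h : ω x = true <;> simp [supp, h]

theorem prob_eq (p : ℝ) (E : Finset X → Prop) :
    Crest.FinProb.bernoulliProb p {ω : X → Bool | E (supp ω)}
      = ∑ U : Finset X, wt p U * (if E U then 1 else 0) := by
  unfold Crest.FinProb.bernoulliProb
  rw [sum_filter]
  refine Fintype.sum_equiv omegaEquiv _ _ fun ω => ?_
  show _ = wt p (supp ω) * (if E (supp ω) then 1 else 0)
  rw [weight_eq]
  by_cases h : E (supp ω)
  · have : ω ∈ {ω : X → Bool | E (supp ω)} := h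
    simp [this, h]
  · have : ω ∉ {ω : X → Bool | E (supp ω)} := h
    simp [this, h]

theorem prob_mono {p : ℝ} (h0 : 0 ≤ p) (h1 : p ≤ 1) {A B : Set (X → Bool)} (h : A ⊆ B) :
    Crest.FinProb.bernoulliProb p A ≤ Crest.FinProb.bernoulliProb p B := by
  unfold Crest.FinProb.bernoulliProb
  rw [sum_filter, sum_filter]
  refine sum_le_sum fun ω _ => ?_
  have h2 : 0 ≤ Crest.FinProb.bernoulliWeight p ω := by
    rw [weight_eq]
    exact wt_nonneg h0 h1 _
  by_cases h3 : ω ∈ A
  · simp [h3, h h3]
  · rw [if_neg h3]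
    split_ifs
    · exact h2
    · exact le_rfl

/-- Some member of the family lies in `U`. -/
def HasMem (S : ι → Finset X) (U : Finset X) : Prop := ∃ i, S i ⊆ U

/-- The spread lemma with uniform weights. -/
theorem spread_main [Nonempty ι] (S : ι → Finset X) {l : ℕ} (hl : 1 ≤ l)
    (hS : ∀ i, (S i).card ≤ l) {q : ℝ} (hq0 : 0 ≤ q)
    (hspread : ∀ T : Finset X,
      ((univ.filter fun i => T ⊆ S i).card : ℝ) ≤ q ^ T.card * (Fintype.card ι : ℝ)) :
    1 / 2 ≤ Crest.FinProb.bernoulliProb (min 1 (2048 * q * (1 + Real.logb 2 (l : ℝ))))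
      {ω : X → Bool | ∃ i, S i ⊆ supp ω} := by
  have hι : (0 : ℝ) < (Fintype.card ι : ℝ) := by
    exact_mod_cast Fintype.card_pos
  set m : ι → ℝ := fun _ => 1 / (Fintype.card ι : ℝ) with hm
  have hm0 : ∀ i, 0 < m i := fun i => by simp only [hm]; positivity
  have hEv : ∀ U : Finset X, Ev m S U ↔ HasMem S U := by
    intro U
    constructor
    · rintro ⟨i, -, h⟩; exact ⟨i, h⟩
    · rintro ⟨i, h⟩; exact ⟨i, hm0 i, h⟩
  have hsum : ∑ i, m i = 1 := by
    rw [hm]
    simp only [sum_const, card_univ, nsmul_eq_mul]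
    field_simp
  have hsp : ∀ T : Finset X, ∑ i, (if T ⊆ S i then m i else 0) ≤ q ^ T.card := by
    intro T
    rw [← sum_filter, hm, sum_const, nsmul_eq_mul]
    rw [mul_one_div, div_le_iff₀ hι]
    exact hspread T
  have hlog0 : 0 ≤ Real.logb 2 (l : ℝ) := by
    apply Real.logb_nonneg (by norm_num)
    exact_mod_cast hl
  have hprob : Crest.FinProb.bernoulliProb (min 1 (2048 * q * (1 + Real.logb 2 (l : ℝ))))
      {ω : X → Bool | ∃ i, S i ⊆ supp ω}
      = ∑ U : Finset X, wt (min 1 (2048 * q * (1 + Real.logb 2 (l : ℝ)))) U *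
          (if HasMem S U then 1 else 0) :=
    prob_eq _ (fun U => HasMem S U)
  rw [hprob]
  -- case: the bias is `1`
  by_cases hbig : 1 ≤ 2048 * q * (1 + Real.logb 2 (l : ℝ))
  · rw [min_eq_left hbig]
    obtain ⟨i⟩ := ‹Nonempty ι›
    have h1 : wt (1 : ℝ) (univ : Finset X) * (if HasMem S (univ : Finset X) then 1 else 0)
        ≤ ∑ U : Finset X, wt 1 U * (if HasMem S U then 1 else 0) := by
      apply single_le_sum (f := fun U : Finset X => wt (1 : ℝ) U * (if HasMem S U then (1 : ℝ) else 0))
      · intro U _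
        apply mul_nonneg (wt_nonneg (by norm_num) le_rfl U)
        split_ifs <;> norm_num
      · exact mem_univ _
    have h2 : wt (1 : ℝ) (univ : Finset X) = 1 := by
      unfold wt wtOn
      simp
    rw [h2, if_pos (show HasMem S univ from ⟨i, subset_univ _⟩)] at h1
    linarith
  rw [not_le] at hbig
  rw [min_eq_right hbig.le]
  by_cases hq00 : q = 0
  · -- all sets are empty
    have hall : ∀ U : Finset X, HasMem S U := by
      intro U
      obtain ⟨i⟩ := ‹Nonempty ι›
      refine ⟨i, ?_⟩
      by_cases hSi : S i = ∅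
      · rw [hSi]; exact empty_subset _
      · exfalso
        have h1 := hspread (S i)
        have h2 : (S i).card ≠ 0 := by simpa using hSi
        rw [hq00, zero_pow h2, zero_mul] at h1
        have h3 : i ∈ (univ.filter fun j => S i ⊆ S j) := by simp
        have h4 : 0 < (univ.filter fun j => S i ⊆ S j).card := card_pos.2 ⟨i, h3⟩
        have h5 : (0 : ℝ) < ((univ.filter fun j => S i ⊆ S j).card : ℝ) := by exact_mod_cast h4
        linarith
    simp only [hall, if_true, mul_one, sum_wt]
    norm_num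
  have hq1 : 0 < q := lt_of_le_of_ne hq0 (Ne.symm hq00)
  set δ : ℝ := 2048 * q with hδ
  have hδ0 : 0 < δ := by positivity
  have hδ1 : δ < 1 := by
    have : δ * 1 ≤ δ * (1 + Real.logb 2 (l : ℝ)) := mul_le_mul_of_nonneg_left (by linarith) hδ0.le
    linarith
  set r : ℕ := Nat.log 2 l + 1 with hr
  have hSr : ∀ i, (S i).card < 2 ^ r := fun i =>
    lt_of_le_of_lt (hS i) (Nat.lt_pow_succ_log_self (by norm_num) l)
  have hcore := spread_core hδ0 hδ1.le hq0 le_rfl r m S (fun i => (hm0 i).le) hSr hsp
  rw [hsum] at hcore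
  have hρ0 : 0 ≤ 1 - (1 - δ) ^ r := by
    have : (1 - δ) ^ r ≤ 1 := pow_le_one₀ (by linarith) (by linarith)
    linarith
  have hrlog : (r : ℝ) ≤ 1 + Real.logb 2 (l : ℝ) := by
    have h1 : (Nat.log 2 l : ℝ) ≤ Real.logb 2 (l : ℝ) := by
      have h2 := Real.natFloor_logb_natCast 2 l
      rw [← h2]
      exact Nat.floor_le hlog0
    rw [hr]
    push_cast
    linarith
  have hρ1 : 1 - (1 - δ) ^ r ≤ δ * (1 + Real.logb 2 (l : ℝ)) := by
    have h1 : 1 + (r : ℝ) * (-δ) ≤ (1 + (-δ)) ^ r :=
      one_add_mul_le_pow (by linarith) r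
    have h2 : (1 + (-δ)) = 1 - δ := by ring
    rw [h2] at h1
    have h3 : (r : ℝ) * δ ≤ (1 + Real.logb 2 (l : ℝ)) * δ := mul_le_mul_of_nonneg_right hrlog hδ0.le
    nlinarith
  have hmono := mono_bias hρ0 hρ1 hbig.le (fun U => HasMem S U)
    (fun U V h ⟨i, hi⟩ => ⟨i, hi.trans h⟩)
  have hEq : ∑ U : Finset X, wt (1 - (1 - δ) ^ r) U * (if Ev m S U then 1 else 0)
      = ∑ U : Finset X, wt (1 - (1 - δ) ^ r) U * (if HasMem S U then 1 else 0) := by
    refine sum_congr rfl fun U _ => ?_
    simp only [hEv]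
  rw [hEq] at hcore
  have h5 : (0 : ℝ) ≤ (1 / 2) ^ r := by positivity
  have h6 : (1 : ℝ) - 1 / 2 * (1 - (1 / 2) ^ r) ≥ 1 / 2 := by linarith
  linarith

end Crest.Agent.KK
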