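/-
S0076: from the embedding-spread condition to the containment probability.
-/
import Crest.Agent.Lib.KK.Spread
import Crest.Prelude.Def_RandomGraph

set_option autoImplicit false
set_option linter.unusedSectionVars false
set_option linter.unusedSimpArgs false
set_option linter.unusedVariables false

namespace Crest.Agent.KK

open Finset Crest.CombinatoricsR.RandomGraph
open scoped Classical

variable {n : ℕ} {V : Type} [Fintype V] [DecidableEq V]

/-- The image of the edge set of `H` under an embedding `π`, as a set of coins. -/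
noncomputable def img (H : SimpleGraph V) [DecidableRel H.Adj] (π : V ↪ Fin n) : Finset (EdgeSlot n) :=
  univ.filter fun z => z.1 ∈ H.edgeFinset.image (Sym2.map π)

theorem card_img_le (H : SimpleGraph V) [DecidableRel H.Adj] (π : V ↪ Fin n) :
    (img H π).card ≤ H.edgeFinset.card := by
  have h1 : (img H π).card ≤ (H.edgeFinset.image (Sym2.map π)).card := by
    refine Finset.card_le_card_of_injOn (fun z => z.1) ?_ ?_
    · intro z hz
      exact (mem_filter.1 hz).2
    · intro z _ z' _ h
      exact Subtype.ext h
  exact h1.trans card_image_le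

theorem contained_of_img (H : SimpleGraph V) [DecidableRel H.Adj] (π : V ↪ Fin n)
    (ω : EdgeSlot n → Bool) (h : img H π ⊆ supp ω) : H.IsContained (graphOf ω) := by
  refine ⟨⟨⟨π, ?_⟩, π.injective⟩⟩
  intro u v huv
  have hne : π u ≠ π v := fun h' => huv.ne (π.injective h')
  have hdiag : ¬ (s(π u, π v) : Sym2 (Fin n)).IsDiag := by simpa using hne
  have hmem : (⟨s(π u, π v), hdiag⟩ : EdgeSlot n) ∈ img H π := by
    simp only [img, mem_filter, mem_univ, true_and, mem_image]
    exact ⟨s(u, v), by simpa using huv, by simp⟩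
  have h2 := h hmem
  have h3 : ω ⟨s(π u, π v), hdiag⟩ = true := by simpa [supp] using h2
  show (graphOf ω).Adj (π u) (π v)
  unfold graphOf
  rw [SimpleGraph.fromEdgeSet_adj]
  exact ⟨⟨hdiag, h3⟩, hne⟩

/-- The spread lemma applied to the random relabelling of `H`. -/
theorem of_spread (hn : Fintype.card V ≤ n) (H : SimpleGraph V) [DecidableRel H.Adj]
    (hH : 1 ≤ H.edgeFinset.card) {q : ℝ} (hq0 : 0 ≤ q)
    (hspread : ∀ T : Finset (EdgeSlot n),
      ((univ.filter fun π : V ↪ Fin n => T ⊆ img H π).card : ℝ)
        ≤ q ^ T.card * (Fintype.card (V ↪ Fin n) : ℝ)) :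
    (1 : ℝ) / 2 ≤ gnpProb n (min 1 (2048 * q * (1 + Real.logb 2 (H.edgeFinset.card : ℝ))))
      {G | H.IsContained G} := by
  have hne : Nonempty (V ↪ Fin n) := by
    apply Function.Embedding.nonempty_of_card_le
    simpa using hn
  have h1 := spread_main (ι := V ↪ Fin n) (X := EdgeSlot n) (fun π => img H π) hH
    (fun π => card_img_le H π) hq0 hspread
  have hlog0 : 0 ≤ Real.logb 2 (H.edgeFinset.card : ℝ) := by
    apply Real.logb_nonneg (by norm_num)
    exact_mod_cast hH
  have hb0 : 0 ≤ min 1 (2048 * q * (1 + Real.logb 2 (H.edgeFinset.card : ℝ))) :=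
    le_min (by norm_num) (by positivity)
  refine h1.trans ?_
  unfold gnpProb
  apply prob_mono hb0 (min_le_left _ _)
  rintro ω ⟨π, hπ⟩
  exact contained_of_img H π ω hπ

end Crest.Agent.KK
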