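/-
S0076: from the counting form of "Lemma A" to the embedding-spread condition, and from `hE`
(expected copy counts) to the counting form of the hypothesis.
-/
import Crest.Agent.Lib.KK.OfSpread

set_option autoImplicit false
set_option linter.unusedSectionVars false
set_option linter.unusedSimpArgs false
set_option linter.unusedVariables false

namespace Crest.Agent.KK

open Finset Crest.CombinatoricsR.RandomGraph
open scoped Classical

variable {n : ℕ} {V : Type} [Fintype V] [DecidableEq V]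

/-- Number of edges of a graph (finite vertex type not needed: `ncard`). -/
noncomputable abbrev eCount {U : Type} (G : SimpleGraph U) : ℕ := G.edgeSet.ncard

/-- The subgraph of `H` consisting of the edges sent into `T` by `π`. -/
def pull (H : SimpleGraph V) (π : V ↪ Fin n) (T : Finset (EdgeSlot n)) : H.Subgraph where
  verts := {u | ∃ v, H.Adj u v ∧ s(π u, π v) ∈ T.image Subtype.val}
  Adj u v := H.Adj u v ∧ s(π u, π v) ∈ T.image Subtype.val
  adj_sub h := h.1
  edge_vert h := ⟨_, h.1, h.2⟩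
  symm := ⟨by
    intro u v h
    refine ⟨h.1.symm, ?_⟩
    rw [Sym2.eq_swap]
    exact h.2⟩

/-- The embedding of the vertices of `pull` given by `π`. -/
def pullEmb (H : SimpleGraph V) (π : V ↪ Fin n) (T : Finset (EdgeSlot n)) :
    (pull H π T).verts ↪ Fin n :=
  ⟨fun u => π u.1, fun a b h => Subtype.ext (π.injective h)⟩

/-- Embeddings `π` for which `φ` factors through a copy of `F` in `H`. -/
def Factor (H : SimpleGraph V) {U : Type} (F : SimpleGraph U) (φ : U ↪ Fin n) (π : V ↪ Fin n) :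
    Prop :=
  ∃ ψ : F.Copy H, ∀ u, π (ψ u) = φ u

theorem factor_unique (H : SimpleGraph V) {U : Type} (F : SimpleGraph U) (φ : U ↪ Fin n)
    (π : V ↪ Fin n) (ψ ψ' : F.Copy H) (h : ∀ u, π (ψ u) = φ u) (h' : ∀ u, π (ψ' u) = φ u) :
    ψ = ψ' := by
  apply DFunLike.coe_injective
  funext u
  apply π.injective
  rw [h, h']

/-- Double counting: each target `φ` is hit by the same number of `π`. -/
theorem card_factor_eq [Fintype (Fin n)] (H : SimpleGraph V) {U : Type} [Fintype U]
    (F : SimpleGraph U) (φ φ' : U ↪ Fin n) :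
    (univ.filter fun π : V ↪ Fin n => Factor H F φ π).card =
      (univ.filter fun π : V ↪ Fin n => Factor H F φ' π).card := by
  -- a permutation moving `φ` to `φ'`
  have hrange : ∃ σ : Equiv.Perm (Fin n), ∀ u, σ (φ u) = φ' u := by
    let e0 : {x // x ∈ Set.range φ} ≃ {x // x ∈ Set.range φ'} :=
      (Equiv.ofInjective φ φ.injective).symm.trans (Equiv.ofInjective φ' φ'.injective)
    refine ⟨e0.extendSubtype, fun u => ?_⟩
    have hu : φ u ∈ Set.range φ := ⟨u, rfl⟩
    have := Equiv.extendSubtype_apply_of_mem e0 (φ u) hu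
    rw [this]
    have h2 : (Equiv.ofInjective φ φ.injective).symm ⟨φ u, hu⟩ = u := by
      apply (Equiv.ofInjective φ φ.injective).injective
      simp
    simp [e0, h2]
  obtain ⟨σ, hσ⟩ := hrange
  refine Finset.card_bij (fun π _ => π.trans σ.toEmbedding) ?_ ?_ ?_
  · intro π hπ
    obtain ⟨ψ, hψ⟩ := (mem_filter.1 hπ).2
    refine mem_filter.2 ⟨mem_univ _, ψ, fun u => ?_⟩
    simp [hψ, hσ]
  · intro π _ π' _ h
    ext x
    have := congrArg (fun f : V ↪ Fin n => f x) h
    simpa using congrArg Fin.val (σ.injective (by simpa using this))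
  · intro π hπ
    obtain ⟨ψ, hψ⟩ := (mem_filter.1 hπ).2
    refine ⟨π.trans σ.symm.toEmbedding, mem_filter.2 ⟨mem_univ _, ψ, fun u => ?_⟩, ?_⟩
    · simp [hψ]
      rw [← hσ u]; simp
    · ext x; simp

/-- The global count. -/
theorem double_count (H : SimpleGraph V) {U : Type} [Fintype U]
    (F : SimpleGraph U) (φ : U ↪ Fin n) :
    Fintype.card (V ↪ Fin n) * H.labelledCopyCount F =
      Fintype.card (U ↪ Fin n) * (univ.filter fun π : V ↪ Fin n => Factor H F φ π).card := by
  classical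
  have h1 : Fintype.card (V ↪ Fin n) * H.labelledCopyCount F =
      Fintype.card ((V ↪ Fin n) × F.Copy H) := by
    rw [Fintype.card_prod]
    congr 1
    unfold SimpleGraph.labelledCopyCount
    convert rfl
  rw [h1]
  -- fibre over `φ'`
  let Φ : (V ↪ Fin n) × F.Copy H → (U ↪ Fin n) := fun x =>
    ⟨fun u => x.1 (x.2 u), fun a b h => x.2.injective (x.1.injective h)⟩
  have hcard := Finset.card_eq_sum_card_fiberwise (s := (univ : Finset ((V ↪ Fin n) × F.Copy H)))
    (t := (univ : Finset (U ↪ Fin n))) (f := Φ) (fun x _ => mem_univ _)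
  rw [Finset.card_univ] at hcard
  rw [hcard]
  have hfib : ∀ φ' : U ↪ Fin n,
      (univ.filter fun x : (V ↪ Fin n) × F.Copy H => Φ x = φ').card =
        (univ.filter fun π : V ↪ Fin n => Factor H F φ π).card := by
    intro φ'
    rw [card_factor_eq H F φ φ']
    refine Finset.card_bij (fun x _ => x.1) ?_ ?_ ?_
    · intro x hx
      have hx' := (mem_filter.1 hx).2
      refine mem_filter.2 ⟨mem_univ _, x.2, fun u => ?_⟩
      rw [← hx']
      rfl
    · intro x hx y hy hxy
      have hx' := (mem_filter.1 hx).2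
      have hy' := (mem_filter.1 hy).2
      refine Prod.ext hxy ?_
      refine factor_unique H F φ' x.1 _ _ (fun u => ?_) (fun u => ?_)
      · rw [← hx']; rfl
      · rw [hxy, ← hy']; rfl
    · intro π hπ
      obtain ⟨ψ, hψ⟩ := (mem_filter.1 hπ).2
      refine ⟨(π, ψ), mem_filter.2 ⟨mem_univ _, ?_⟩, rfl⟩
      ext u
      simp [Φ, hψ]
  rw [sum_congr rfl (fun φ' _ => hfib φ'), sum_const, card_univ, smul_eq_mul]

section Spread

variable (H : SimpleGraph V) [DecidableRel H.Adj]

theorem mem_img_iff (π : V ↪ Fin n) (z : EdgeSlot n) :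
    z ∈ img H π ↔ ∃ e ∈ H.edgeSet, Sym2.map π e = z.1 := by
  simp [img]

/-- Membership in `T` through `π₀` gives the pull adjacency. -/
theorem pull_adj_of_mem (π₀ : V ↪ Fin n) (T : Finset (EdgeSlot n)) {a b : V}
    (h : H.Adj a b) (hz : s(π₀ a, π₀ b) ∈ T.image Subtype.val) : (pull H π₀ T).Adj a b :=
  ⟨h, hz⟩

theorem filter_img_eq_factor (π₀ : V ↪ Fin n) (T : Finset (EdgeSlot n)) (h₀ : T ⊆ img H π₀) :
    (univ.filter fun π : V ↪ Fin n => T ⊆ img H π) =
      univ.filter fun π : V ↪ Fin n => Factor H (pull H π₀ T).coe (pullEmb H π₀ T) π := by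
  ext π
  simp only [mem_filter, mem_univ, true_and]
  constructor
  · intro hπ
    -- every image lies in the range of `π`
    have key : ∀ {u v : V}, (pull H π₀ T).Adj u v →
        ∃ e ∈ H.edgeSet, Sym2.map π e = s(π₀ u, π₀ v) := by
      intro u v huv
      obtain ⟨z, hzT, hz⟩ := mem_image.1 huv.2
      have := (mem_img_iff H π z).1 (hπ hzT)
      simpa [hz] using this
    have hex : ∀ u : (pull H π₀ T).verts, ∃ x, π x = π₀ u.1 := by
      rintro ⟨u, v, huv, hz⟩
      obtain ⟨e, _, he⟩ := key (u := u) (v := v) ⟨huv, hz⟩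
      have : π₀ u ∈ Sym2.map π e := by rw [he]; simp
      obtain ⟨x, _, hx⟩ := Sym2.mem_map.1 this
      exact ⟨x, hx⟩
    choose f hf using hex
    have hadj : ∀ {a b : (pull H π₀ T).verts}, (pull H π₀ T).coe.Adj a b → H.Adj (f a) (f b) := by
      intro a b hab
      obtain ⟨e, he, heq⟩ := key (u := a.1) (v := b.1) hab
      have h1 : Sym2.map π e = Sym2.map π s(f a, f b) := by
        rw [heq]; simp [hf]
      have h2 := Sym2.map.injective π.injective h1
      rw [h2] at he
      simpa using he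
    refine ⟨⟨⟨f, hadj⟩, ?_⟩, fun u => hf u⟩
    intro a b hab
    apply Subtype.ext
    apply π₀.injective
    rw [← hf a, ← hf b]
    exact congrArg π hab
  · rintro ⟨ψ, hψ⟩ z hz
    obtain ⟨e, he, hze⟩ := (mem_img_iff H π₀ z).1 (h₀ hz)
    induction e using Sym2.ind with
    | _ a b =>
      have hab : H.Adj a b := by simpa using he
      have hzval : s(π₀ a, π₀ b) ∈ T.image Subtype.val := by
        refine mem_image.2 ⟨z, hz, ?_⟩
        rw [← hze]; simp
      have ha : a ∈ (pull H π₀ T).verts := ⟨b, hab, hzval⟩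
      have hb : b ∈ (pull H π₀ T).verts := (pull H π₀ T).edge_vert (⟨hab.symm, by
        rw [Sym2.eq_swap]; exact hzval⟩ : (pull H π₀ T).Adj b a)
      have hcoe : (pull H π₀ T).coe.Adj ⟨a, ha⟩ ⟨b, hb⟩ := ⟨hab, hzval⟩
      have hH := ψ.toHom.map_adj hcoe
      refine (mem_img_iff H π z).2 ⟨s(ψ ⟨a, ha⟩, ψ ⟨b, hb⟩), by simpa using hH, ?_⟩
      rw [← hze]
      have h3 : ∀ w (hw : w ∈ (pull H π₀ T).verts), π (ψ ⟨w, hw⟩) = π₀ w := fun w hw => hψ ⟨w, hw⟩
      simp [h3]

theorem eCount_pull (π₀ : V ↪ Fin n) (T : Finset (EdgeSlot n)) (h₀ : T ⊆ img H π₀) :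
    eCount (pull H π₀ T).coe = T.card := by
  have h1 : (Sym2.map (pullEmb H π₀ T)) '' (pull H π₀ T).coe.edgeSet =
      ((T.image Subtype.val : Finset (Sym2 (Fin n))) : Set (Sym2 (Fin n))) := by
    ext z
    constructor
    · rintro ⟨e, he, rfl⟩
      induction e using Sym2.ind with
      | _ a b =>
        have hab : (pull H π₀ T).coe.Adj a b := by simpa using he
        exact_mod_cast hab.2
    · intro hz
      have hz' : z ∈ T.image Subtype.val := by exact_mod_cast hz
      obtain ⟨z', hz'T, rfl⟩ := mem_image.1 hz'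
      obtain ⟨e, he, hze⟩ := (mem_img_iff H π₀ z').1 (h₀ hz'T)
      induction e using Sym2.ind with
      | _ a b =>
        have hab : H.Adj a b := by simpa using he
        have hzval : s(π₀ a, π₀ b) ∈ T.image Subtype.val := by
          refine mem_image.2 ⟨z', hz'T, ?_⟩
          rw [← hze]; simp
        have ha : a ∈ (pull H π₀ T).verts := ⟨b, hab, hzval⟩
        have hb : b ∈ (pull H π₀ T).verts := (pull H π₀ T).edge_vert (⟨hab.symm, by
          rw [Sym2.eq_swap]; exact hzval⟩ : (pull H π₀ T).Adj b a)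
        have hcoe : (pull H π₀ T).coe.Adj ⟨a, ha⟩ ⟨b, hb⟩ := ⟨hab, hzval⟩
        refine ⟨s(⟨a, ha⟩, ⟨b, hb⟩), hcoe, ?_⟩
        rw [← hze]
        rfl
  have h2 : Set.InjOn (Sym2.map (pullEmb H π₀ T)) (pull H π₀ T).coe.edgeSet :=
    (Sym2.map.injective (pullEmb H π₀ T).injective).injOn
  rw [eCount, ← Set.InjOn.ncard_image h2, h1, Set.ncard_coe_finset,
    card_image_of_injective _ Subtype.val_injective]

/-- **Counts to spread.** -/
theorem spread_of_counts {q : ℝ} (hq0 : 0 ≤ q)
    (hA : ∀ F : H.Subgraph, (H.labelledCopyCount F.coe : ℝ) ≤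
      q ^ eCount F.coe * (Fintype.card (F.verts ↪ Fin n) : ℝ))
    (T : Finset (EdgeSlot n)) :
    ((univ.filter fun π : V ↪ Fin n => T ⊆ img H π).card : ℝ)
      ≤ q ^ T.card * (Fintype.card (V ↪ Fin n) : ℝ) := by
  by_cases hne : ∃ π₀ : V ↪ Fin n, T ⊆ img H π₀
  · obtain ⟨π₀, h₀⟩ := hne
    rw [filter_img_eq_factor H π₀ T h₀]
    have hdc := double_count (n := n) H (pull H π₀ T).coe (pullEmb H π₀ T)
    have hA0 := hA (pull H π₀ T)
    rw [eCount_pull H π₀ T h₀] at hA0
    have hpos : (0 : ℝ) < (Fintype.card ((pull H π₀ T).verts ↪ Fin n) : ℝ) := by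
      have : Nonempty ((pull H π₀ T).verts ↪ Fin n) := ⟨pullEmb H π₀ T⟩
      exact_mod_cast Fintype.card_pos
    have hdc' : (Fintype.card (V ↪ Fin n) : ℝ) * (H.labelledCopyCount (pull H π₀ T).coe : ℝ) =
        (Fintype.card ((pull H π₀ T).verts ↪ Fin n) : ℝ) *
          ((univ.filter fun π : V ↪ Fin n =>
            Factor H (pull H π₀ T).coe (pullEmb H π₀ T) π).card : ℝ) := by
      exact_mod_cast hdc
    have hE0 : (0 : ℝ) ≤ (Fintype.card (V ↪ Fin n) : ℝ) := by positivity
    refine le_of_mul_le_mul_left ?_ hpos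
    rw [← hdc']
    calc (Fintype.card (V ↪ Fin n) : ℝ) * (H.labelledCopyCount (pull H π₀ T).coe : ℝ)
        ≤ (Fintype.card (V ↪ Fin n) : ℝ) *
          (q ^ T.card * (Fintype.card ((pull H π₀ T).verts ↪ Fin n) : ℝ)) :=
          mul_le_mul_of_nonneg_left hA0 hE0
      _ = _ := by ring
  · have : (univ.filter fun π : V ↪ Fin n => T ⊆ img H π) = ∅ := by
      rw [filter_eq_empty_iff]
      intro π _ hπ
      exact hne ⟨π, hπ⟩
    rw [this]
    simp only [card_empty, Nat.cast_zero]
    positivity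

/-- **Lemma A in counting form implies the containment bound.** -/
theorem containment_of_counts (hn : Fintype.card V ≤ n) (hH : 1 ≤ H.edgeFinset.card)
    {q : ℝ} (hq0 : 0 ≤ q)
    (hA : ∀ F : H.Subgraph, (H.labelledCopyCount F.coe : ℝ) ≤
      q ^ eCount F.coe * (Fintype.card (F.verts ↪ Fin n) : ℝ)) :
    (1 : ℝ) / 2 ≤ gnpProb n (min 1 (2048 * q * (1 + Real.logb 2 (H.edgeFinset.card : ℝ))))
      {G | H.IsContained G} :=
  of_spread hn H hH hq0 (spread_of_counts H hq0 hA)

end Spread

end Crest.Agent.KK
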