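/-
S0076: expected copy counts in the binomial random graph; labelled versus unlabelled copies.
-/
import Crest.Agent.Lib.KK.Reduction

set_option autoImplicit false
set_option linter.unusedSectionVars false
set_option linter.unusedSimpArgs false
set_option linter.unusedVariables false

namespace Crest.Agent.KK

open Finset Crest.CombinatoricsR.RandomGraph
open scoped Classical

variable {n : ℕ}

section Expect

variable {U : Type} [Fintype U]

/-- Slots of a subgraph of the complete graph. -/
noncomputable def slots (S : (⊤ : SimpleGraph (Fin n)).Subgraph) : Finset (EdgeSlot n) :=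
  univ.filter fun z => z.1 ∈ S.edgeSet

theorem eCount_iso {U₁ U₂ : Type} {A : SimpleGraph U₁} {B : SimpleGraph U₂} (e : A ≃g B) :
    eCount A = eCount B :=
  Set.ncard_congr' e.mapEdgeSet

theorem card_slots (S : (⊤ : SimpleGraph (Fin n)).Subgraph) : (slots S).card = eCount S.coe := by
  have h1 : Set.InjOn (Sym2.map ((↑) : S.verts → Fin n)) S.coe.edgeSet :=
    (Sym2.map.injective Subtype.val_injective).injOn
  rw [eCount, ← Set.InjOn.ncard_image h1, S.image_coe_edgeSet_coe]
  have h2 : S.edgeSet = (((slots S).image Subtype.val : Finset (Sym2 (Fin n))) : Set (Sym2 (Fin n))) := by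
    ext z
    simp only [coe_image, Set.mem_image, mem_coe, slots, mem_filter, mem_univ, true_and]
    constructor
    · intro hz
      have hnd : ¬ z.IsDiag := by
        induction z using Sym2.ind with
        | _ a b =>
          have h3 : S.Adj a b := by simpa using hz
          simpa using (S.adj_sub h3).ne
      exact ⟨⟨z, hnd⟩, hz, rfl⟩
    · rintro ⟨z', hz', rfl⟩
      exact hz'
  rw [h2, Set.ncard_coe_finset, card_image_of_injective _ Subtype.val_injective]

/-- A subgraph of `G` lifted to the complete graph. -/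
def liftSub (G : SimpleGraph (Fin n)) (G' : G.Subgraph) : (⊤ : SimpleGraph (Fin n)).Subgraph where
  verts := G'.verts
  Adj := G'.Adj
  adj_sub h := by simpa using (G'.adj_sub h).ne
  edge_vert := G'.edge_vert
  symm := G'.symm

/-- A subgraph of the complete graph which lies in `G`. -/
def lowerSub (G : SimpleGraph (Fin n)) (S : (⊤ : SimpleGraph (Fin n)).Subgraph)
    (h : ∀ a b, S.Adj a b → G.Adj a b) : G.Subgraph where
  verts := S.verts
  Adj := S.Adj
  adj_sub h' := h _ _ h'
  edge_vert := S.edge_vert
  symm := S.symm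

theorem copyCount_eq_filter (G : SimpleGraph (Fin n)) (F : SimpleGraph U) :
    G.copyCount F = (univ.filter fun S : (⊤ : SimpleGraph (Fin n)).Subgraph =>
      Nonempty (F ≃g S.coe) ∧ ∀ a b, S.Adj a b → G.Adj a b).card := by
  unfold SimpleGraph.copyCount
  refine Finset.card_bij (fun G' _ => liftSub G G') ?_ ?_ ?_
  · intro G' hG'
    simp only [mem_filter, mem_univ, true_and] at hG' ⊢
    exact hG'.elim fun e => ⟨⟨e⟩, fun a b h => G'.adj_sub h⟩
  · intro A _ B _ h
    have h1 : A.verts = B.verts := congrArg (fun S : (⊤ : SimpleGraph (Fin n)).Subgraph => S.verts) h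
    have h2 : A.Adj = B.Adj := congrArg (fun S : (⊤ : SimpleGraph (Fin n)).Subgraph => S.Adj) h
    exact SimpleGraph.Subgraph.ext h1 h2
  · intro S hS
    simp only [mem_filter, mem_univ, true_and] at hS
    have hle := hS.2
    refine hS.1.elim fun e => ⟨lowerSub G S hle, ?_, rfl⟩
    simp only [mem_filter, mem_univ, true_and]
    exact ⟨e⟩

theorem le_iff_slots (S : (⊤ : SimpleGraph (Fin n)).Subgraph) (ω : EdgeSlot n → Bool) :
    (∀ a b, S.Adj a b → (graphOf ω).Adj a b) ↔ slots S ⊆ supp ω := by
  constructor
  · intro h z hz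
    obtain ⟨z, hnd⟩ := z
    have hzS : z ∈ S.edgeSet := (mem_filter.1 hz).2
    induction z using Sym2.ind with
    | _ a b =>
      have h3 : S.Adj a b := by simpa using hzS
      have h4 := h a b h3
      unfold graphOf at h4
      rw [SimpleGraph.fromEdgeSet_adj] at h4
      obtain ⟨⟨_, h5⟩, _⟩ := h4
      simpa [supp] using h5
  · intro h a b hab
    have hne : a ≠ b := by simpa using S.adj_sub hab
    have hnd : ¬ (s(a, b) : Sym2 (Fin n)).IsDiag := by simpa using hne
    have hmem : (⟨s(a, b), hnd⟩ : EdgeSlot n) ∈ slots S :=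
      mem_filter.2 ⟨mem_univ _, by simpa using hab⟩
    have h3 := h hmem
    have h4 : ω ⟨s(a, b), hnd⟩ = true := by simpa [supp] using h3
    unfold graphOf
    rw [SimpleGraph.fromEdgeSet_adj]
    exact ⟨⟨hnd, h4⟩, hne⟩

/-- The marginal of the product measure. -/
theorem sum_weight_subset {X : Type} [Fintype X] [DecidableEq X] (p : ℝ) (T : Finset X) :
    ∑ ω : X → Bool, Crest.FinProb.bernoulliWeight p ω * (if T ⊆ supp ω then 1 else 0) = p ^ T.card := by
  have h1 : ∀ ω : X → Bool, Crest.FinProb.bernoulliWeight p ω * (if T ⊆ supp ω then (1 : ℝ) else 0) =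
      ∏ i, ((if ω i then p else 1 - p) * (if i ∈ T ∧ ω i = false then 0 else 1)) := by
    intro ω
    unfold Crest.FinProb.bernoulliWeight
    rw [prod_mul_distrib]
    congr 1
    by_cases h : T ⊆ supp ω
    · rw [if_pos h]
      symm
      apply prod_eq_one
      intro i _
      rw [if_neg]
      rintro ⟨hi, hf⟩
      have := h hi
      simp [supp, hf] at this
    · rw [if_neg h]
      symm
      rw [not_subset] at h
      obtain ⟨i, hi, hi'⟩ := h
      apply prod_eq_zero (mem_univ i)
      rw [if_pos]
      refine ⟨hi, ?_⟩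
      simpa [supp] using hi'
  rw [sum_congr rfl (fun ω _ => h1 ω)]
  have h2 := Finset.prod_univ_sum (fun _ : X => (univ : Finset Bool))
    (fun i (b : Bool) => (if b then p else 1 - p) * (if i ∈ T ∧ b = false then (0 : ℝ) else 1))
  rw [Fintype.piFinset_univ] at h2
  rw [← h2]
  have h3 : ∀ i : X, ∑ b : Bool, (if b then p else 1 - p) * (if i ∈ T ∧ b = false then (0 : ℝ) else 1)
      = if i ∈ T then p else 1 := by
    intro i
    by_cases hi : i ∈ T <;> simp [hi]
  rw [prod_congr rfl (fun i _ => h3 i)]
  rw [Finset.prod_ite_mem, Finset.univ_inter, prod_const]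

/-- **Expected copy count.** -/
theorem gnpExpect_copyCount (p : ℝ) (F : SimpleGraph U) :
    gnpExpect n p (fun G => (G.copyCount F : ℝ)) =
      (((⊤ : SimpleGraph (Fin n)).copyCount F : ℕ) : ℝ) * p ^ eCount F := by
  unfold gnpExpect
  have h1 : ∀ ω : EdgeSlot n → Bool, ((graphOf ω).copyCount F : ℝ) =
      ∑ S ∈ (univ.filter fun S : (⊤ : SimpleGraph (Fin n)).Subgraph => Nonempty (F ≃g S.coe)),
        (if slots S ⊆ supp ω then (1 : ℝ) else 0) := by
    intro ω
    rw [copyCount_eq_filter, ← filter_filter]
    rw [Finset.card_filter, Nat.cast_sum]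
    refine sum_congr rfl fun S _ => ?_
    simp only [le_iff_slots]
    split_ifs <;> simp
  have h2 : ((⊤ : SimpleGraph (Fin n)).copyCount F : ℕ) =
      (univ.filter fun S : (⊤ : SimpleGraph (Fin n)).Subgraph => Nonempty (F ≃g S.coe)).card := by
    rw [copyCount_eq_filter]
    congr 1
    ext S
    simp only [mem_filter, mem_univ, true_and]
    exact ⟨fun h => h.1, fun h => ⟨h, fun a b hab => S.adj_sub hab⟩⟩
  rw [h2, ← nsmul_eq_mul, ← sum_const]
  simp_rw [h1, mul_sum]
  rw [sum_comm]
  refine sum_congr rfl fun S hS => ?_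
  simp only [mem_filter, mem_univ, true_and] at hS
  refine hS.elim fun e => ?_
  rw [sum_weight_subset, card_slots, eCount_iso e]

/-- Labelled copies in the complete graph are the embeddings of vertex sets. -/
theorem labelled_top (F : SimpleGraph U) :
    (⊤ : SimpleGraph (Fin n)).labelledCopyCount F = Fintype.card (U ↪ Fin n) := by
  unfold SimpleGraph.labelledCopyCount
  let e : F.Copy (⊤ : SimpleGraph (Fin n)) ≃ (U ↪ Fin n) :=
    ⟨fun f => f.toEmbedding,
      fun f => ⟨⟨f, fun {a b} h => by simpa using f.injective.ne h.ne⟩, f.injective⟩,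
      fun f => by ext a; rfl, fun f => by ext a; rfl⟩
  convert Fintype.card_congr e

/-- The automorphism relating two copies with the same image. -/
theorem exists_aut {A : Type} (G : SimpleGraph A) (F : SimpleGraph U) (f g : F.Copy G)
    (h : f.toSubgraph = g.toSubgraph) : ∃ α : F ≃g F, ∀ u, g u = f (α u) := by
  have hv : ∀ u, ∃ w, g u = f w := by
    intro u
    have h1 : g u ∈ g.toSubgraph.verts := by simp
    rw [← h] at h1
    simp only [SimpleGraph.Subgraph.map_verts, SimpleGraph.Subgraph.verts_top, Set.image_univ,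
      Set.mem_range] at h1
    obtain ⟨w, hw⟩ := h1
    exact ⟨w, hw.symm⟩
  choose a ha using hv
  have hinj : Function.Injective a := by
    intro x y hxy
    apply g.injective
    show g x = g y
    rw [ha, ha, hxy]
  have hbij : Function.Bijective a := Finite.injective_iff_bijective.1 hinj
  refine ⟨⟨Equiv.ofBijective a hbij, ?_⟩, fun u => ha u⟩
  intro x y
  show F.Adj (a x) (a y) ↔ F.Adj x y
  constructor
  · intro hxy
    have h1 : f.toSubgraph.Adj (f (a x)) (f (a y)) := by
      simp only [SimpleGraph.Subgraph.map_adj, SimpleGraph.Subgraph.top_adj]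
      exact ⟨_, _, hxy, rfl, rfl⟩
    rw [h, ← ha, ← ha] at h1
    simp only [SimpleGraph.Subgraph.map_adj, SimpleGraph.Subgraph.top_adj] at h1
    obtain ⟨x', y', hxy', h2, h3⟩ := h1
    have h4 : x' = x := g.injective h2
    have h5 : y' = y := g.injective h3
    exact h4 ▸ h5 ▸ hxy'
  · intro hxy
    have h1 : g.toSubgraph.Adj (g x) (g y) := by
      simp only [SimpleGraph.Subgraph.map_adj, SimpleGraph.Subgraph.top_adj]
      exact ⟨_, _, hxy, rfl, rfl⟩
    rw [← h, ha, ha] at h1
    simp only [SimpleGraph.Subgraph.map_adj, SimpleGraph.Subgraph.top_adj] at h1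
    obtain ⟨x', y', hxy', h2, h3⟩ := h1
    have h4 : x' = a x := f.injective h2
    have h5 : y' = a y := f.injective h3
    exact h4 ▸ h5 ▸ hxy'

/-- Labelled copies = unlabelled copies times automorphisms. -/
theorem labelled_eq_mul {A : Type} [Fintype A] (G : SimpleGraph A) (F : SimpleGraph U) :
    G.labelledCopyCount F = G.copyCount F * Nat.card (F ≃g F) := by
  classical
  let _ : Fintype (F ≃g F) := Fintype.ofInjective (fun α : F ≃g F => (α : U → U)) (fun α β h => by
    ext u; exact congrFun h u)
  rw [Nat.card_eq_fintype_card]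
  rw [SimpleGraph.copyCount_eq_card_image_copyToSubgraph]
  unfold SimpleGraph.labelledCopyCount
  rw [← Finset.card_univ (α := F.Copy G)]
  rw [Finset.card_eq_sum_card_image (SimpleGraph.Copy.toSubgraph (A := F) (B := G)) univ]
  rw [Finset.sum_const_nat (m := Fintype.card (F ≃g F))]
  intro S hS
  obtain ⟨f₀, _, rfl⟩ := mem_image.1 hS
  -- the fibre over the image of `f₀` is a torsor of automorphisms
  rw [← Finset.card_univ (α := F ≃g F)]
  symm
  refine Finset.card_bij (fun α _ => f₀.comp α.toEmbedding.toCopy) ?_ ?_ ?_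
  · intro α _
    refine mem_filter.2 ⟨mem_univ _, ?_⟩
    apply SimpleGraph.Subgraph.ext
    · ext x
      simp only [SimpleGraph.Subgraph.map_verts, SimpleGraph.Subgraph.verts_top, Set.image_univ,
        Set.mem_range]
      constructor
      · rintro ⟨u, rfl⟩
        exact ⟨α u, rfl⟩
      · rintro ⟨u, rfl⟩
        refine ⟨α.symm u, ?_⟩
        show f₀ (α (α.symm u)) = f₀ u
        simp
    · funext x y
      simp only [SimpleGraph.Subgraph.map_adj, SimpleGraph.Subgraph.top_adj, eq_iff_iff]
      constructor
      · rintro ⟨u, v, huv, rfl, rfl⟩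
        exact ⟨α u, α v, α.map_rel_iff.2 huv, rfl, rfl⟩
      · rintro ⟨u, v, huv, rfl, rfl⟩
        refine ⟨α.symm u, α.symm v, α.symm.map_rel_iff.2 huv, ?_, ?_⟩
        · show f₀ (α (α.symm u)) = f₀ u
          simp
        · show f₀ (α (α.symm v)) = f₀ v
          simp
  · intro α _ β _ h
    ext u
    have h1 : f₀ (α u) = f₀ (β u) := DFunLike.congr_fun h u
    exact f₀.injective h1
  · intro g hg
    have h1 := (mem_filter.1 hg).2
    obtain ⟨α, hα⟩ := exists_aut G F f₀ g h1.symm
    refine ⟨α, mem_univ _, ?_⟩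
    ext u
    rw [hα u]
    rfl

end Expect

end Crest.Agent.KK
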