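/-
S0076: the statement is exactly "Lemma A" in counting form.

`LemmaA n H p q` : for every subgraph `F` of `H`,
  (#embeddings of `F` into `H`) ≤ q ^ e(F) * (#injections of the vertices of `F` into `Fin n`).

The hypothesis `hE` becomes (`half_le_top`, `aut_le`): for every subgraph `F` of `H`,
  1/2 ≤ N_F(K_n) * p ^ e(F),   equivalently  |Aut F| ≤ 2 * n^(v(F)) * p ^ e(F).

So once `LemmaA` is proved from `aut_le` with `q = exp 50 * p`, S0076 follows by `result_of_lemmaA`.
-/
import Crest.Agent.Lib.KK.Expect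

set_option autoImplicit false
set_option linter.unusedSectionVars false
set_option linter.unusedSimpArgs false
set_option linter.unusedVariables false

namespace Crest.Agent.KK

open Finset Crest.CombinatoricsR.RandomGraph
open scoped Classical

/-- The counting form of Lemma A. -/
def LemmaA {W : Type} [Fintype W] (n : ℕ) (H : SimpleGraph W) (q : ℝ) : Prop :=
  ∀ F : H.Subgraph, (H.labelledCopyCount F.coe : ℝ) ≤
    q ^ eCount F.coe * (Fintype.card (F.verts ↪ Fin n) : ℝ)

/-- `hE` in counting form. -/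
theorem half_le_top {n : ℕ} {W : Type} {H : SimpleGraph W} [Fintype W] (p : ℝ) (F : H.Subgraph)
    (hE : (1 : ℝ) / 2 ≤ gnpExpect n p (fun G => (G.copyCount F.coe : ℝ))) :
    (1 : ℝ) / 2 ≤ (((⊤ : SimpleGraph (Fin n)).copyCount F.coe : ℕ) : ℝ) * p ^ eCount F.coe := by
  rwa [gnpExpect_copyCount] at hE

/-- `hE` in automorphism form. -/
theorem aut_le {n : ℕ} {W : Type} {H : SimpleGraph W} [Fintype W] {p : ℝ} (F : H.Subgraph)
    (hE : (1 : ℝ) / 2 ≤ gnpExpect n p (fun G => (G.copyCount F.coe : ℝ))) :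
    (Nat.card (F.coe ≃g F.coe) : ℝ) ≤
      2 * ((Fintype.card (F.verts ↪ Fin n) : ℝ) * p ^ eCount F.coe) := by
  have h1 := half_le_top p F hE
  have h2 := labelled_eq_mul (⊤ : SimpleGraph (Fin n)) F.coe
  rw [labelled_top] at h2
  have h3 : (Fintype.card (F.verts ↪ Fin n) : ℝ) =
      (((⊤ : SimpleGraph (Fin n)).copyCount F.coe : ℕ) : ℝ) * (Nat.card (F.coe ≃g F.coe) : ℝ) := by
    exact_mod_cast h2
  rw [h3]
  have h4 : (0 : ℝ) ≤ (Nat.card (F.coe ≃g F.coe) : ℝ) := by positivity
  nlinarith [mul_le_mul_of_nonneg_right h1 h4]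

/-- **S0076 from Lemma A.** -/
theorem result_of_lemmaA (n : ℕ) (W : Type) [Fintype W] [DecidableEq W] (H : SimpleGraph W)
    [DecidableRel H.Adj] (hW : Fintype.card W ≤ n) (hH : 1 ≤ H.edgeFinset.card)
    (p : ℝ) (hp0 : 0 ≤ p) (hA : LemmaA n H (Real.exp 50 * p)) :
    (1 : ℝ) / 2 ≤ gnpProb n
      (min 1 (2048 * Real.exp 50 * p * (1 + Real.logb 2 (H.edgeFinset.card : ℝ))))
      {G | H.IsContained G} := by
  have h := containment_of_counts H hW hH (q := Real.exp 50 * p) (by positivity) hA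
  have h2 : 2048 * (Real.exp 50 * p) * (1 + Real.logb 2 (H.edgeFinset.card : ℝ)) =
      2048 * Real.exp 50 * p * (1 + Real.logb 2 (H.edgeFinset.card : ℝ)) := by ring
  rwa [h2] at h

end Crest.Agent.KK
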